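import Vale.Agent.P148.Defs

/-!
# P148: the probability space carrying the coloured Poisson process
-/

open MeasureTheory Set Metric ProbabilityTheory
open scoped ENNReal NNReal

namespace P148.Ex

/-- The sample space: for each annulus, a number of points and a sequence of coloured points. -/
abbrev Sp : Type := ℕ → ℕ × (ℕ → Pt)

/-- The `k`-th annulus. -/
def R (k : ℕ) : Set ℂ := {z | (k : ℝ) ≤ ‖z‖ ∧ ‖z‖ < k + 1}

/-- The uniform law on the `k`-th annulus, with a fair colour. -/
noncomputable def nu (k : ℕ) : Measure Pt := (ProbabilityTheory.cond volume (R k)).prod fair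

/-- The mean number of points in the `k`-th annulus. -/
noncomputable def mass (lam : ℝ≥0) (k : ℕ) : ℝ≥0 := lam * (volume (R k)).toNNReal

/-- The probability measure. -/
noncomputable def Pr (lam : ℝ≥0) : Measure Sp :=
  Measure.infinitePi fun k => (poissonMeasure (mass lam k)).prod (Measure.infinitePi fun _ : ℕ => nu k)

/-- The number of indices `(k, j)` with `k < K` whose point lies in `A`. -/
noncomputable def cnt (K : ℕ) (A : Set Pt) (ω : Sp) : ℕ :=
  ∑ k ∈ Finset.range K, ∑ j ∈ Finset.range (ω k).1, A.indicator 1 ((ω k).2 j)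

/-- The good event: the points lie in their annuli and have distinct positions. -/
def good : Set Sp := {ω | (∀ k j, ((ω k).2 j).1 ∈ R k) ∧
  ∀ k j k' j', ((ω k).2 j).1 = ((ω k').2 j').1 → k = k' ∧ j = j'}

/-- The coloured configuration. -/
def S (ω : Sp) : Set Pt := {x | ω ∈ good ∧ ∃ k, ∃ j < (ω k).1, (ω k).2 j = x}

instance : IsProbabilityMeasure fair := by
  constructor
  rw [fair, Measure.smul_apply, Measure.count_univ, smul_eq_mul]
  simp [ENNReal.inv_mul_cancel]

lemma measurableSet_R (k : ℕ) : MeasurableSet (R k) :=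
  (measurableSet_le measurable_const measurable_norm).inter
    (measurableSet_lt measurable_norm measurable_const)

lemma volume_R_ne_top (k : ℕ) : volume (R k) ≠ ⊤ := by
  have h : R k ⊆ ball (0 : ℂ) (k + 1) := fun z hz => by simpa using hz.2
  exact ((measure_mono h).trans_lt measure_ball_lt_top).ne

lemma volume_R_ne_zero (k : ℕ) : volume (R k) ≠ 0 := by
  have h : ball ((k : ℂ) + 1 / 2) (1 / 4) ⊆ R k := by
    intro z hz
    have h1 : ‖z - ((k : ℂ) + 1 / 2)‖ < 1 / 4 := by simpa [dist_eq_norm] using hz
    have h2 : ‖(k : ℂ) + 1 / 2‖ = (k : ℝ) + 1 / 2 := by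
      have h : (k : ℂ) + 1 / 2 = (((k : ℝ) + 1 / 2 : ℝ) : ℂ) := by push_cast; ring
      rw [h, Complex.norm_real, Real.norm_of_nonneg (by positivity)]
    constructor
    · have := norm_sub_norm_le ((k : ℂ) + 1 / 2) z
      rw [norm_sub_rev] at this
      linarith
    · have := norm_sub_norm_le z ((k : ℂ) + 1 / 2)
      linarith
  exact fun h0 => (measure_ball_pos volume ((k : ℂ) + 1 / 2) (by norm_num : (0 : ℝ) < 1 / 4)).ne'
    (measure_mono_null h h0)

instance (k : ℕ) : IsProbabilityMeasure (ProbabilityTheory.cond volume (R k) : Measure ℂ) :=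
  cond_isProbabilityMeasure_of_finite (volume_R_ne_zero k) (volume_R_ne_top k)

instance (k : ℕ) : IsProbabilityMeasure (nu k) := by unfold nu; infer_instance

instance (lam : ℝ≥0) : IsProbabilityMeasure (Pr lam) := by unfold Pr; infer_instance

end P148.Ex
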