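import Vale.Agent.P148.Ex.Defs

/-!
# P148: Poisson laws and independence of the counts
-/

open MeasureTheory Set Metric ProbabilityTheory
open scoped ENNReal NNReal

namespace P148.Ex

section General

variable {ι : Type*} {X : ι → Type*} [∀ i, MeasurableSpace (X i)]

/-- Fubini for a finite product of functions of single coordinates of an infinite product. -/
theorem int_prod (μ : ∀ i, Measure (X i)) [∀ i, IsProbabilityMeasure (μ i)] (s : Finset ι)
    (f : ∀ i, X i → ℂ) (hf : ∀ i, Measurable (f i)) :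
    ∫ x, ∏ i ∈ s, f i (x i) ∂(Measure.infinitePi μ) = ∏ i ∈ s, ∫ x, f i x ∂(μ i) := by
  have h1 : ∀ x : (∀ i, X i), ∏ i ∈ s, f i (x i) =
      (fun y : (∀ i : s, X i) => ∏ i : s, f i (y i)) (s.restrict x) := by
    intro x
    simp only [Finset.restrict]
    exact (Finset.prod_coe_sort s (fun i => f i (x i))).symm
  simp_rw [h1]
  rw [integral_restrict_infinitePi (μ := μ)
    (f := fun y : (∀ i : s, X i) => ∏ i : s, f i (y i))]
  · rw [integral_fintype_prod_eq_prod (f := fun (i : s) (y : X i) => f i y)]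
    exact Finset.prod_coe_sort s (fun i => ∫ x, f i x ∂(μ i))
  · apply Measurable.aestronglyMeasurable
    exact Finset.measurable_prod _ fun i _ => (hf i).comp (measurable_pi_apply i)

end General

variable {E : Type*} [MeasurableSpace E]

lemma meas_prodN (h : E → ℂ) (hm : Measurable h) :
    Measurable fun p : ℕ × (ℕ → E) => ∏ j ∈ Finset.range p.1, h (p.2 j) := by
  apply measurable_from_prod_countable_right
  intro n
  change Measurable fun y : ℕ → E => ∏ j ∈ Finset.range n, h (y j)
  exact Finset.measurable_prod _ fun j _ => hm.comp (measurable_pi_apply j)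

/-- The generating functional of finitely many (Poisson) independent points. -/
theorem one (ν : Measure E) [IsProbabilityMeasure ν] (m : ℝ≥0) (h : E → ℂ) (hm : Measurable h)
    (hb : ∀ x, ‖h x‖ ≤ 1) :
    ∫ p, ∏ j ∈ Finset.range p.1, h (p.2 j)
      ∂((poissonMeasure m).prod (Measure.infinitePi fun _ : ℕ => ν)) =
      Complex.exp (m * ((∫ x, h x ∂ν) - 1)) := by
  have hbd : ∀ p : ℕ × (ℕ → E), ‖∏ j ∈ Finset.range p.1, h (p.2 j)‖ ≤ 1 := by
    intro p
    rw [norm_prod]
    exact Finset.prod_le_one (fun _ _ => norm_nonneg _) fun j _ => hb _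
  have hint : Integrable (fun p : ℕ × (ℕ → E) => ∏ j ∈ Finset.range p.1, h (p.2 j))
      ((poissonMeasure m).prod (Measure.infinitePi fun _ : ℕ => ν)) :=
    Integrable.of_bound (meas_prodN h hm).aestronglyMeasurable 1 (Filter.Eventually.of_forall hbd)
  rw [integral_prod _ hint]
  simp only
  simp_rw [int_prod (fun _ : ℕ => ν) (Finset.range _) (fun _ => h) (fun _ => hm)]
  simp only [Finset.prod_const, Finset.card_range]
  rw [integral_poissonMeasure]
  set a : ℂ := ∫ x, h x ∂ν
  calc ∑' n : ℕ, (Real.exp (-m) * m ^ n / n.factorial : ℝ) • a ^ n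
      = ∑' n : ℕ, (Real.exp (-m) : ℂ) * ((m * a) ^ n / n.factorial) := by
        refine tsum_congr fun n => ?_
        rw [Complex.real_smul, mul_pow]
        push_cast
        ring
    _ = (Real.exp (-m) : ℂ) * ∑' n : ℕ, ((m * a) ^ n / n.factorial) := tsum_mul_left
    _ = (Real.exp (-m) : ℂ) * Complex.exp (m * a) := by
        rw [(NormedSpace.expSeries_div_hasSum_exp ((m : ℂ) * a)).tsum_eq, Complex.exp_eq_exp_ℂ]
    _ = Complex.exp (m * (a - 1)) := by
        rw [Complex.ofReal_exp, ← Complex.exp_add]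
        congr 1
        push_cast
        ring

/-- The generating functional of the points in the first `K` annuli. -/
theorem gen (lam : ℝ≥0) (K : ℕ) (h : Pt → ℂ) (hm : Measurable h) (hb : ∀ x, ‖h x‖ ≤ 1) :
    ∫ ω, ∏ k ∈ Finset.range K, ∏ j ∈ Finset.range (ω k).1, h ((ω k).2 j) ∂(Pr lam) =
      Complex.exp (∑ k ∈ Finset.range K, mass lam k * ((∫ x, h x ∂(nu k)) - 1)) := by
  unfold Pr
  rw [int_prod _ _ (fun (_ : ℕ) (p : ℕ × (ℕ → Pt)) => ∏ j ∈ Finset.range p.1, h (p.2 j))
    (fun _ => meas_prodN h hm), Complex.exp_sum]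
  exact Finset.prod_congr rfl fun k _ => one (nu k) (mass lam k) h hm hb

lemma meas_sumN (A : Set E) (hA : MeasurableSet A) :
    Measurable fun p : ℕ × (ℕ → E) => ∑ j ∈ Finset.range p.1, A.indicator (1 : E → ℕ) (p.2 j) := by
  apply measurable_from_prod_countable_right
  intro n
  change Measurable fun y : ℕ → E => ∑ j ∈ Finset.range n, A.indicator (1 : E → ℕ) (y j)
  exact Finset.measurable_sum _ fun j _ =>
    (measurable_one.indicator hA).comp (measurable_pi_apply j)

theorem measurable_cnt (K : ℕ) {A : Set Pt} (hA : MeasurableSet A) : Measurable (cnt K A) := by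
  unfold cnt
  exact Finset.measurable_sum _ fun k _ => (meas_sumN A hA).comp (measurable_pi_apply k)

/-- The phase. -/
noncomputable def ph {ι : Type*} [Fintype ι] (A : ι → Set Pt) (t : ι → ℝ) (x : Pt) : ℂ :=
  Complex.exp ((∑ i, t i * (A i).indicator (1 : Pt → ℝ) x : ℝ) * Complex.I)

lemma measurable_ph {ι : Type*} [Fintype ι] (A : ι → Set Pt) (hA : ∀ i, MeasurableSet (A i))
    (t : ι → ℝ) : Measurable (ph A t) := by
  unfold ph
  apply Complex.measurable_exp.comp
  refine Measurable.mul_const ?_ _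
  apply Complex.measurable_ofReal.comp
  exact Finset.measurable_sum _ fun i _ => (measurable_one.indicator (hA i)).const_mul _

lemma norm_ph {ι : Type*} [Fintype ι] (A : ι → Set Pt) (t : ι → ℝ) (x : Pt) : ‖ph A t x‖ ≤ 1 := by
  unfold ph
  rw [Complex.norm_exp_ofReal_mul_I]

lemma prod_ph {ι : Type*} [Fintype ι] (K : ℕ) (A : ι → Set Pt) (t : ι → ℝ) (ω : Sp) :
    ∏ k ∈ Finset.range K, ∏ j ∈ Finset.range (ω k).1, ph A t ((ω k).2 j) =
      Complex.exp ((∑ i, t i * (cnt K (A i) ω : ℝ) : ℝ) * Complex.I) := by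
  unfold ph cnt
  simp_rw [← Complex.exp_sum]
  congr 1
  simp_rw [← Finset.sum_mul]
  congr 1
  norm_cast
  push_cast
  simp_rw [Finset.mul_sum]
  rw [Finset.sum_comm (s := Finset.univ)]
  refine Finset.sum_congr rfl fun k _ => ?_
  rw [Finset.sum_comm]
  refine Finset.sum_congr rfl fun i _ => Finset.sum_congr rfl fun j _ => ?_
  by_cases hx : (ω k).2 j ∈ A i <;> simp [hx]

lemma ph_eq {ι : Type*} [Fintype ι] [DecidableEq ι] (A : ι → Set Pt)
    (hd : Pairwise fun i j => Disjoint (A i) (A j)) (t : ι → ℝ) (x : Pt) :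
    ph A t x = 1 + ∑ i, (Complex.exp (t i * Complex.I) - 1) * (A i).indicator (1 : Pt → ℂ) x := by
  unfold ph
  by_cases h : ∃ i, x ∈ A i
  · obtain ⟨i, hi⟩ := h
    have hj : ∀ j, j ≠ i → x ∉ A j := fun j hj hx => (Set.disjoint_left.1 (hd hj)) hx hi
    rw [Finset.sum_eq_single i (fun j _ hji => by simp [hj j hji]) (by simp),
      Finset.sum_eq_single i (fun j _ hji => by simp [hj j hji]) (by simp)]
    simp [hi]
  · push Not at h
    simp [h]

lemma integral_ph {ι : Type*} [Fintype ι] [DecidableEq ι] (A : ι → Set Pt)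
    (hA : ∀ i, MeasurableSet (A i))
    (hd : Pairwise fun i j => Disjoint (A i) (A j)) (t : ι → ℝ) (ν : Measure Pt)
    [IsProbabilityMeasure ν] :
    (∫ x, ph A t x ∂ν) - 1 = ∑ i, (Complex.exp (t i * Complex.I) - 1) * (ν (A i)).toReal := by
  have hint : ∀ i, Integrable (fun x => (A i).indicator (1 : Pt → ℂ) x) ν := fun i =>
    (integrable_const (1 : ℂ)).indicator (hA i)
  simp_rw [ph_eq A hd t]
  rw [integral_add (integrable_const _)
    (integrable_finsetSum _ fun i _ => (hint i).const_mul _),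
    integral_finsetSum _ fun i _ => (hint i).const_mul _]
  simp only [integral_const, probReal_univ, one_smul, add_sub_cancel_left]
  refine Finset.sum_congr rfl fun i _ => ?_
  rw [integral_const_mul]
  congr 1
  rw [integral_indicator (hA i)]
  simp [Measure.real]

/-- The mass of `A` seen by the first `K` annuli. -/
noncomputable def tot (lam : ℝ≥0) (K : ℕ) (A : Set Pt) : ℝ :=
  ∑ k ∈ Finset.range K, mass lam k * (nu k A).toReal

/-- Joint characteristic function of the counts. -/
theorem joint {ι : Type*} [Fintype ι] [DecidableEq ι] (lam : ℝ≥0) (K : ℕ) (A : ι → Set Pt)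
    (hA : ∀ i, MeasurableSet (A i))
    (hd : Pairwise fun i j => Disjoint (A i) (A j)) (t : ι → ℝ) :
    ∫ ω, Complex.exp ((∑ i, t i * (cnt K (A i) ω : ℝ) : ℝ) * Complex.I) ∂(Pr lam) =
      ∏ i, Complex.exp (tot lam K (A i) * (Complex.exp (t i * Complex.I) - 1)) := by
  simp_rw [← prod_ph K A t]
  rw [gen lam K _ (measurable_ph A hA t) (norm_ph A t), ← Complex.exp_sum]
  congr 1
  simp_rw [integral_ph A hA hd t]
  unfold tot
  push_cast
  simp_rw [Finset.mul_sum, Finset.sum_mul]
  rw [Finset.sum_comm]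
  refine Finset.sum_congr rfl fun i _ => Finset.sum_congr rfl fun k _ => ?_
  ring

end P148.Ex
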