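import Vale.Agent.P148.Ex.Law

/-!
# P148: Poisson laws and independence of the counts, conclusion
-/

open MeasureTheory Set Metric ProbabilityTheory
open scoped ENNReal NNReal

namespace P148.Ex

lemma nu_eq (k : ℕ) (A : Set Pt) (hA : MeasurableSet A) :
    nu k A = (volume (R k))⁻¹ * ((volume : Measure ℂ).prod fair) (A ∩ R k ×ˢ univ) := by
  unfold nu ProbabilityTheory.cond
  rw [Measure.prod_smul_left, Measure.smul_apply, smul_eq_mul,
    Measure.restrict_prod_eq_prod_univ, Measure.restrict_apply hA]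

lemma inten_apply (lam : ℝ≥0) (A : Set Pt) :
    inten lam A = (lam : ℝ≥0∞) * ((volume : Measure ℂ).prod fair) A := by
  unfold inten
  rw [Measure.smul_apply]
  rfl

lemma mass_nu (lam : ℝ≥0) (k : ℕ) (A : Set Pt) (hA : MeasurableSet A) :
    (mass lam k : ℝ≥0∞) * nu k A = inten lam (A ∩ R k ×ˢ univ) := by
  rw [nu_eq k A hA, inten_apply, mass, ENNReal.coe_mul, ENNReal.coe_toNNReal (volume_R_ne_top k),
    mul_assoc, ← mul_assoc (volume (R k)), ENNReal.mul_inv_cancel (volume_R_ne_zero k)
      (volume_R_ne_top k), one_mul]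

lemma tot_eq (lam : ℝ≥0) (K : ℕ) (A : Set Pt) (hA : MeasurableSet A)
    (hAK : A ⊆ ball (0 : ℂ) K ×ˢ univ) : tot lam K A = (inten lam A).toReal := by
  have h1 : A = ⋃ k ∈ Finset.range K, A ∩ R k ×ˢ (univ : Set Bool) := by
    ext x
    simp only [mem_iUnion, mem_inter_iff, mem_prod, mem_univ, and_true, exists_prop,
      Finset.mem_range]
    constructor
    · intro hx
      have h := (hAK hx).1
      rw [mem_ball_zero_iff] at h
      refine ⟨⌊‖x.1‖⌋₊, ?_, hx, Nat.floor_le (norm_nonneg _), Nat.lt_floor_add_one _⟩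
      exact (Nat.floor_lt (norm_nonneg _)).2 h
    · rintro ⟨k, _, hx, _⟩
      exact hx
  have h2 : inten lam A = ∑ k ∈ Finset.range K, (mass lam k : ℝ≥0∞) * nu k A := by
    rw [h1, measure_biUnion_finset, ← h1]
    · exact Finset.sum_congr rfl fun k _ => (mass_nu lam k A hA).symm
    · intro i _ j _ hij
      rw [Function.onFun, Set.disjoint_left]
      rintro x ⟨_, ⟨h1, h2⟩, _⟩ ⟨_, ⟨h3, h4⟩, _⟩
      apply hij
      have ha : (i : ℝ) < j + 1 := lt_of_le_of_lt h1 h4
      have hb : (j : ℝ) < i + 1 := lt_of_le_of_lt h3 h2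
      norm_cast at ha hb
      omega
    · exact fun k _ => hA.inter ((measurableSet_R k).prod MeasurableSet.univ)
  rw [h2, ENNReal.toReal_sum]
  · unfold tot
    refine Finset.sum_congr rfl fun k _ => ?_
    rw [ENNReal.toReal_mul]
    rfl
  · exact fun k _ => ENNReal.mul_ne_top ENNReal.coe_ne_top (measure_ne_top _ _)

/-- Characteristic function of one count. -/
theorem charFun_cnt (lam : ℝ≥0) (K : ℕ) (A : Set Pt) (hA : MeasurableSet A) (t : ℝ) :
    charFun ((Pr lam).map fun ω => (cnt K A ω : ℝ)) t =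
      Complex.exp (tot lam K A * (Complex.exp (t * Complex.I) - 1)) := by
  have hc : Measurable fun ω => (cnt K A ω : ℝ) :=
    (measurable_from_top (f := fun n : ℕ => (n : ℝ))).comp (measurable_cnt K hA)
  rw [charFun_apply, integral_map hc.aemeasurable (by fun_prop)]
  have := joint (ι := Unit) lam K (fun _ => A) (fun _ => hA)
    (fun i j hij => (hij (Subsingleton.elim i j)).elim) (fun _ => t)
  simp only [Finset.univ_unique, Finset.sum_singleton, Finset.prod_singleton] at this
  rw [← this]
  rfl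

theorem cnt_law (lam : ℝ≥0) (K : ℕ) {A : Set Pt} (hA : MeasurableSet A)
    (hAK : A ⊆ ball (0 : ℂ) K ×ˢ univ) :
    (Pr lam).map (cnt K A) = poissonMeasure (inten lam A).toNNReal := by
  apply (MeasurableEmbedding.natCast (α := ℝ)).map_injective
  rw [Measure.map_map (by fun_prop) (measurable_cnt K hA)]
  have h1 : IsProbabilityMeasure ((Pr lam).map ((Nat.cast : ℕ → ℝ) ∘ cnt K A)) :=
    Measure.isProbabilityMeasure_map
      ((measurable_from_top (f := fun n : ℕ => (n : ℝ))).comp (measurable_cnt K hA)).aemeasurable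
  have h2 : IsProbabilityMeasure ((poissonMeasure (inten lam A).toNNReal).map
    (Nat.cast : ℕ → ℝ)) :=
    Measure.isProbabilityMeasure_map (measurable_from_top (f := fun n : ℕ => (n : ℝ))).aemeasurable
  apply Measure.ext_of_charFun
  ext t
  rw [charFun_map_cast_poissonMeasure]
  have := charFun_cnt lam K A hA t
  rw [tot_eq lam K A hA hAK] at this
  exact this

theorem cnt_indep (lam : ℝ≥0) (K : ℕ) {n : ℕ} (A : Fin n → Set Pt)
    (hA : ∀ i, MeasurableSet (A i)) (hd : Pairwise fun i j => Disjoint (A i) (A j)) :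
    iIndepFun (fun i ω => cnt K (A i) ω) (Pr lam) := by
  have hc : ∀ i, Measurable fun ω => (cnt K (A i) ω : ℝ) := fun i =>
    (measurable_from_top (f := fun n : ℕ => (n : ℝ))).comp (measurable_cnt K (hA i))
  have h : iIndepFun (fun i ω => (cnt K (A i) ω : ℝ)) (Pr lam) := by
    rw [iIndepFun_iff_charFun_pi fun i => (hc i).aemeasurable]
    intro t
    simp_rw [fun i => charFun_cnt lam K (A i) (hA i) (t i)]
    rw [charFun_apply, integral_map ?_ (by fun_prop), ← joint lam K A hA hd (fun i => t i)]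
    · refine integral_congr_ae (Filter.Eventually.of_forall fun ω => ?_)
      simp only
      congr 2
    · exact ((WithLp.measurable_toLp 2 _).comp (measurable_pi_lambda _ hc)).aemeasurable
  have h3 := h.comp (fun _ x => ⌊x⌋₊) (fun _ => Nat.measurable_floor)
  have e : (fun i => (fun x : ℝ => ⌊x⌋₊) ∘ fun ω => (cnt K (A i) ω : ℝ)) =
      fun i ω => cnt K (A i) ω := by
    funext i ω
    exact Nat.floor_natCast _
  rw [← e]
  exact h3

end P148.Ex
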