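import Vale.Agent.P148.Ex.Law2

/-!
# P148: the coloured Poisson process exists
-/

open MeasureTheory Set Metric ProbabilityTheory
open scoped ENNReal NNReal

namespace P148.Ex

lemma measurable_pt (k j : ℕ) : Measurable fun ω : Sp => (ω k).2 j :=
  (measurable_pi_apply j).comp (measurable_snd.comp (measurable_pi_apply k))

theorem measurableSet_good : MeasurableSet good := by
  have h1 : good = (⋂ k, ⋂ j, (fun ω : Sp => ((ω k).2 j).1) ⁻¹' R k) ∩
      ⋂ k, ⋂ j, ⋂ k', ⋂ j', {ω : Sp | ((ω k).2 j).1 = ((ω k').2 j').1 → k = k' ∧ j = j'} := by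
    ext ω
    simp [good]
  rw [h1]
  refine (MeasurableSet.iInter fun k => .iInter fun j =>
    (measurable_fst.comp (measurable_pt k j)) (measurableSet_R k)).inter ?_
  refine .iInter fun k => .iInter fun j => .iInter fun k' => .iInter fun j' => ?_
  by_cases h : k = k' ∧ j = j'
  · simp [h]
  · simp only [h, imp_false]
    exact (measurableSet_eq_fun (measurable_fst.comp (measurable_pt k j))
      (measurable_fst.comp (measurable_pt k' j'))).compl

lemma mp_pair (lam : ℝ≥0) (k : ℕ) :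
    MeasurePreserving (fun ω : Sp => (ω k).2) (Pr lam) (Measure.infinitePi fun _ : ℕ => nu k) :=
  measurePreserving_snd.comp (measurePreserving_eval_infinitePi
    (fun k => (poissonMeasure (mass lam k)).prod (Measure.infinitePi fun _ : ℕ => nu k)) k)

lemma mp_pt (lam : ℝ≥0) (k j : ℕ) :
    MeasurePreserving (fun ω : Sp => (ω k).2 j) (Pr lam) (nu k) :=
  (measurePreserving_eval_infinitePi (fun _ : ℕ => nu k) j).comp (mp_pair lam k)

lemma nu_annulus (k : ℕ) : ∀ᵐ x ∂(nu k), x.1 ∈ R k := by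
  have h : MeasurableSet {x : Pt | ¬ x.1 ∈ R k} :=
    (measurable_fst (measurableSet_R k)).compl
  rw [ae_iff, nu_eq k _ h]
  have : {x : Pt | ¬ x.1 ∈ R k} ∩ R k ×ˢ (univ : Set Bool) = ∅ := by
    ext x
    simp
  rw [this, measure_empty, mul_zero]

lemma nu_fibre (k : ℕ) (z : ℂ) : nu k {y | z = y.1} = 0 := by
  have h : {y : Pt | z = y.1} = {z} ×ˢ (univ : Set Bool) := by
    ext y
    constructor
    · intro hy
      exact ⟨Eq.symm hy, mem_univ _⟩
    · intro hy
      exact Eq.symm hy.1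
  rw [h]
  unfold nu
  rw [Measure.prod_prod]
  have h1 : (ProbabilityTheory.cond volume (R k) : Measure ℂ) {z} = 0 :=
    cond_absolutelyContinuous (measure_singleton z)
  rw [h1, zero_mul]

lemma ae_ne (lam : ℝ≥0) (k : ℕ) {j j' : ℕ} (hj : j ≠ j') :
    ∀ᵐ ω ∂(Pr lam), ((ω k).2 j).1 ≠ ((ω k).2 j').1 := by
  have hm : MeasurableSet {p : Pt × Pt | p.1.1 = p.2.1} :=
    measurableSet_eq_fun (measurable_fst.comp measurable_fst)
      (measurable_fst.comp measurable_snd)
  have h0 : ((nu k).prod (nu k)) {p : Pt × Pt | p.1.1 = p.2.1} = 0 := by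
    rw [Measure.measure_prod_null hm]
    exact Filter.Eventually.of_forall fun x => nu_fibre k x.1
  have h1 : MeasurePreserving (fun ω : Sp => ((ω k).2 j, (ω k).2 j')) (Pr lam)
      ((nu k).prod (nu k)) := by
    have h2 : MeasurePreserving (fun y : ℕ → Pt => (y j, y j'))
        (Measure.infinitePi fun _ : ℕ => nu k) ((nu k).prod (nu k)) :=
      ⟨(measurable_pi_apply j).prodMk (measurable_pi_apply j'),
        Measure.infinitePi_map_eval_prod (P := fun _ : ℕ => nu k) hj⟩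
    exact h2.comp (mp_pair lam k)
  rw [ae_iff]
  have := h1.measure_preimage hm.nullMeasurableSet
  rw [h0] at this
  simpa [Set.preimage] using this

theorem ae_good (lam : ℝ≥0) : ∀ᵐ ω ∂(Pr lam), ω ∈ good := by
  have h1 : ∀ᵐ ω ∂(Pr lam), ∀ k j, ((ω k).2 j).1 ∈ R k := by
    rw [ae_all_iff]
    intro k
    rw [ae_all_iff]
    intro j
    exact (mp_pt lam k j).quasiMeasurePreserving.ae (nu_annulus k)
  have h2 : ∀ᵐ ω ∂(Pr lam), ∀ k j j', j ≠ j' → ((ω k).2 j).1 ≠ ((ω k).2 j').1 := by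
    rw [ae_all_iff]
    intro k
    rw [ae_all_iff]
    intro j
    rw [ae_all_iff]
    intro j'
    by_cases hj : j = j'
    · exact Filter.Eventually.of_forall fun _ h => (h hj).elim
    · filter_upwards [ae_ne lam k hj] with ω hω _ using hω
  filter_upwards [h1, h2] with ω h1 h2
  refine ⟨h1, fun k j k' j' h => ?_⟩
  have hk : k = k' := by
    have ha := h1 k j
    have hb := h1 k' j'
    rw [h] at ha
    have h3 : (k : ℝ) < k' + 1 := lt_of_le_of_lt ha.1 hb.2
    have h4 : (k' : ℝ) < k + 1 := lt_of_le_of_lt hb.1 ha.2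
    norm_cast at h3 h4
    omega
  subst hk
  refine ⟨rfl, ?_⟩
  by_contra hj
  exact h2 k j j' hj h

open Classical in
/-- The indices of the points in `A`. -/
noncomputable def idx (K : ℕ) (A : Set Pt) (ω : Sp) : Finset (Σ _ : ℕ, ℕ) :=
  (Finset.range K).sigma fun k => (Finset.range (ω k).1).filter fun j => (ω k).2 j ∈ A

lemma S_inter (ω : Sp) (hω : ω ∈ good) (K : ℕ) (A : Set Pt) (hA : A ⊆ ball (0 : ℂ) K ×ˢ univ) :
    S ω ∩ A = (fun p : (Σ _ : ℕ, ℕ) => (ω p.1).2 p.2) '' (idx K A ω : Set (Σ _ : ℕ, ℕ)) := by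
  ext x
  constructor
  · rintro ⟨⟨_, k, j, hj, rfl⟩, hx⟩
    refine ⟨⟨k, j⟩, ?_, rfl⟩
    have h1 := (hA hx).1
    rw [mem_ball_zero_iff] at h1
    have h2 : (k : ℝ) < K := lt_of_le_of_lt (hω.1 k j).1 h1
    norm_cast at h2
    simp [idx, h2, hj, hx]
  · rintro ⟨⟨k, j⟩, hp, rfl⟩
    simp only [idx, Finset.coe_sigma, Set.mem_sigma_iff, Finset.coe_range, mem_Iio,
      Finset.coe_filter, Finset.mem_range, mem_ofPred_eq] at hp
    exact ⟨⟨hω, k, j, hp.2.1, rfl⟩, hp.2.2⟩

theorem ncard_S (ω : Sp) (hω : ω ∈ good) (K : ℕ) (A : Set Pt)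
    (hA : A ⊆ ball (0 : ℂ) K ×ˢ univ) : (S ω ∩ A).ncard = cnt K A ω := by
  rw [S_inter ω hω K A hA, Set.InjOn.ncard_image, Set.ncard_coe_finset, idx,
    Finset.card_sigma]
  · unfold cnt
    refine Finset.sum_congr rfl fun k _ => ?_
    rw [Finset.card_filter]
    refine Finset.sum_congr rfl fun j _ => ?_
    by_cases hx : (ω k).2 j ∈ A
    · rw [indicator_of_mem hx]
      simp [hx]
    · rw [indicator_of_notMem hx]
      simp [hx]
  · rintro ⟨k, j⟩ _ ⟨k', j'⟩ _ h
    obtain ⟨rfl, rfl⟩ := hω.2 k j k' j' (congrArg Prod.fst h)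
    rfl

lemma S_empty (ω : Sp) (hω : ω ∉ good) : S ω = ∅ := by
  ext x
  simp [S, hω]

theorem locFin (ω : Sp) (r : ℝ) : (S ω ∩ ball (0 : ℂ) r ×ˢ univ).Finite := by
  by_cases hω : ω ∈ good
  · rw [S_inter ω hω ⌈r⌉₊ _ (prod_mono (ball_subset_ball (Nat.le_ceil r)) subset_rfl)]
    exact (Finset.finite_toSet _).image _
  · rw [S_empty ω hω, empty_inter]
    exact finite_empty

theorem oneColour (ω : Sp) (z : ℂ) : ¬ ((z, true) ∈ S ω ∧ (z, false) ∈ S ω) := by
  rintro ⟨⟨hω, k, j, _, h⟩, ⟨_, k', j', _, h'⟩⟩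
  have h1 : ((ω k).2 j).1 = ((ω k').2 j').1 := by rw [h, h']
  obtain ⟨rfl, rfl⟩ := hω.2 k j k' j' h1
  rw [h] at h'
  exact Bool.noConfusion (congrArg Prod.snd h')

lemma ncard_ae (lam : ℝ≥0) (K : ℕ) (A : Set Pt) (hA : A ⊆ ball (0 : ℂ) K ×ˢ univ) :
    (fun ω => (S ω ∩ A).ncard) =ᵐ[Pr lam] cnt K A := by
  filter_upwards [ae_good lam] with ω hω using ncard_S ω hω K A hA

lemma exists_K {A : Set Pt} (hA : Bdd A) : ∃ K : ℕ, A ⊆ ball (0 : ℂ) K ×ˢ univ := by
  obtain ⟨r, hr⟩ := hA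
  exact ⟨⌈r⌉₊, hr.trans (prod_mono (ball_subset_ball (Nat.le_ceil r)) subset_rfl)⟩

/-- `S` is a coloured Poisson process. -/
theorem isColouredPoisson (lam : ℝ≥0) : IsColouredPoisson (Pr lam) S lam where
  locFin := locFin
  oneColour := oneColour
  meas A hA hb := by
    obtain ⟨K, hK⟩ := exists_K hb
    have h : (fun ω => (S ω ∩ A).ncard) = good.indicator (cnt K A) := by
      funext ω
      by_cases hω : ω ∈ good
      · rw [indicator_of_mem hω, ncard_S ω hω K A hK]
      · rw [indicator_of_notMem hω, S_empty ω hω, empty_inter, ncard_empty]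
    rw [h]
    exact (measurable_cnt K hA).indicator measurableSet_good
  law A hA hb := by
    obtain ⟨K, hK⟩ := exists_K hb
    rw [Measure.map_congr (ncard_ae lam K A hK)]
    exact cnt_law lam K hA hK
  indep n A hA hb hd := by
    choose K hK using fun i => exists_K (hb i)
    have h : ∀ i, A i ⊆ ball (0 : ℂ) ((∑ i, K i : ℕ) : ℝ) ×ˢ univ := fun i =>
      (hK i).trans (prod_mono (ball_subset_ball (Nat.cast_le.2
        (Finset.single_le_sum (f := K) (fun _ _ => Nat.zero_le _) (Finset.mem_univ i))))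
        subset_rfl)
    exact (cnt_indep lam (∑ i, K i) A hA hd).congr fun i => (ncard_ae lam _ (A i) (h i)).symm

end P148.Ex

namespace P148

/-- The model of critical Voronoi percolation exists, for every intensity. -/
theorem exists_model (lam : ℝ≥0) : ∃ (Ω : Type) (_ : MeasurableSpace Ω) (P : Measure Ω)
    (_ : IsProbabilityMeasure P) (S : Ω → Set Pt), IsColouredPoisson P S lam :=
  ⟨Ex.Sp, inferInstance, Ex.Pr lam, inferInstance, Ex.S, Ex.isColouredPoisson lam⟩

end P148
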